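import Vale.Agent.P284.H636.Slice
import Vale.Agent.P284.H5.V16D
import Vale.Agent.P284.H894.F.DefsN
import Vale.Agent.P284.H894.V.Defs2

/-!
# P284 (helper636): holomorphic maps `ℂᴺ → X` of finite order give maps `ℂⁿ → X` of finite order
-/

open scoped Manifold ContDiff Topology Pointwise ComplexConjugate ComplexOrder
open Filter Set Metric MeasureTheory

noncomputable section

namespace Vale.Agent.P284.H636

open Vale.Agent.P272.K Vale.Agent.P284.H894.V Vale.Agent.P284.H894.F Vale.Agent.P284.H5.V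

variable {N n : ℕ}

/-- `∂f/∂z_j` of a holomorphic function. -/
lemma dzN_holo {f : Cm N → ℂ} {ζ : Cm N} (h : DifferentiableAt ℂ f ζ) (j : Fin N) :
    dz j f ζ = fderiv ℂ f ζ (Pi.single j 1) := dz_of_holo h

/-- The linear map `ℂⁿ → ℂᴺ` which puts the coordinates at the places `i`. -/
def emb (i : Fin n → Fin N) : Cm n →L[ℂ] Cm N :=
  ∑ k, (ContinuousLinearMap.proj (R := ℂ) (φ := fun _ : Fin n => ℂ) k).smulRight
    (Pi.single (i k) (1 : ℂ) : Cm N)

lemma emb_single (i : Fin n → Fin N) (k : Fin n) :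
    emb i (Pi.single k 1) = Pi.single (i k) 1 := by
  unfold emb
  rw [sum_apply, Finset.sum_eq_single k]
  · simp
  · intro b _ hb
    simp [hb]
  · simp

lemma emb_apply (i : Fin n → Fin N) (z : Cm n) (j : Fin N) :
    emb i z j = ∑ k, if i k = j then z k else 0 := by
  unfold emb
  rw [sum_apply, Finset.sum_apply]
  refine Finset.sum_congr rfl fun k _ => ?_
  by_cases h : i k = j
  · subst h; simp
  · simp [h, Ne.symm h]

lemma norm_emb {i : Fin n → Fin N} (hi : Function.Injective i) (z : Cm n) : ‖emb i z‖ ≤ ‖z‖ := by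
  rw [pi_norm_le_iff_of_nonneg (norm_nonneg z)]
  intro j
  rw [emb_apply]
  by_cases h : ∃ k, i k = j
  · obtain ⟨k, rfl⟩ := h
    rw [Finset.sum_eq_single k]
    · rw [if_pos rfl]
      exact norm_le_pi_norm z k
    · intro b _ hb
      rw [if_neg fun h => hb (hi h)]
    · intro h
      exact absurd (Finset.mem_univ k) h
  · rw [Finset.sum_eq_zero]
    · rw [norm_zero]; exact norm_nonneg z
    · intro k _
      rw [if_neg fun h1 => h ⟨k, h1⟩]

/-- The affine map `z ↦ c + emb i z`. -/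
def aff (i : Fin n → Fin N) (c : Cm N) (z : Cm n) : Cm N := c + emb i z

lemma aff_hasFDerivAt (i : Fin n → Fin N) (c : Cm N) (z : Cm n) :
    HasFDerivAt (aff i c) (emb i) z :=
  (emb i).hasFDerivAt.const_add c

lemma aff_differentiable (i : Fin n → Fin N) (c : Cm N) : Differentiable ℂ (aff i c) := fun z =>
  (aff_hasFDerivAt i c z).differentiableAt

lemma aff_contDiff (i : Fin n → Fin N) (c : Cm N) : ContDiff ℂ ω (aff i c) :=
  contDiff_const.add (emb i).contDiff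

section
variable {X : Type} [TopologicalSpace X] [ChartedSpace (Cm n) X] [IsManifold 𝓘(ℂ, Cm n) ω X]
  {w : Chart n X → Cm n → Matrix (Fin n) (Fin n) ℂ} {Φ : Cm N → X}

/-- The complex partial derivative in a chart. -/
def pd (e : Chart n X) (Φ : Cm N → X) (j : Fin N) (ζ : Cm N) : Cm n :=
  fun k => dz j (fun ξ => e (Φ ξ) k) ζ

lemma tauN_smooth (hΦ : ContMDiff 𝓘(ℂ, Cm N) 𝓘(ℂ, Cm n) ω Φ) {ζ : Cm N} {e : Chart n X}
    (he : At e (Φ ζ)) : ContDiffAt ℂ ω (fun ξ => e (Φ ξ)) ζ := by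
  rw [← contMDiffAt_iff_contDiffAt]
  exact ContMDiffAt.comp ζ (chart_contMDiffAt he) hΦ.contMDiffAt

omit [IsManifold 𝓘(ℂ, Cm n) ω X] in
lemma atN_near (hΦ : ContMDiff 𝓘(ℂ, Cm N) 𝓘(ℂ, Cm n) ω Φ) {ζ : Cm N} {e : Chart n X}
    (he : At e (Φ ζ)) : ∀ᶠ ξ in 𝓝 ζ, At e (Φ ξ) := by
  filter_upwards [hΦ.continuous.continuousAt.eventually (e.open_source.mem_nhds he.2)] with ξ hξ
  exact ⟨he.1, hξ⟩

lemma pd_eq (hΦ : ContMDiff 𝓘(ℂ, Cm N) 𝓘(ℂ, Cm n) ω Φ) {ζ : Cm N} {e : Chart n X}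
    (he : At e (Φ ζ)) (j : Fin N) :
    pd e Φ j ζ = fderiv ℂ (fun ξ => e (Φ ξ)) ζ (Pi.single j 1) := by
  have h := (tauN_smooth hΦ he).differentiableAt (by simp)
  funext k
  unfold pd
  rw [dzN_holo ((differentiableAt_pi.1 h) k), fderiv_apply h k]
  rfl

/-- Change of charts. -/
lemma pd_change (hΦ : ContMDiff 𝓘(ℂ, Cm N) 𝓘(ℂ, Cm n) ω Φ) {ζ : Cm N} {e₁ e : Chart n X}
    (h₁ : At e₁ (Φ ζ)) (he : At e (Φ ζ)) (j : Fin N) :
    pd e Φ j ζ = (jacM e₁ e (Φ ζ)).mulVec (pd e₁ Φ j ζ) := by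
  have h1 : (fun ξ => e (Φ ξ)) =ᶠ[𝓝 ζ] fun ξ => e (e₁.symm (e₁ (Φ ξ))) := by
    filter_upwards [atN_near hΦ h₁] with ξ hξ
    rw [hξ.left_inv]
  have hτ := (tauN_smooth hΦ h₁).differentiableAt (by simp)
  have hσ : DifferentiableAt ℂ (fun z => e (e₁.symm z)) (e₁ (Φ ζ)) :=
    transition_differentiableAt h₁ he
  rw [pd_eq hΦ he, pd_eq hΦ h₁, h1.fderiv_eq]
  rw [show (fun ξ => e (e₁.symm (e₁ (Φ ξ)))) = (fun z => e (e₁.symm z)) ∘ (fun ξ => e₁ (Φ ξ))
    from rfl, fderiv_comp ζ hσ hτ, ContinuousLinearMap.comp_apply]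
  funext p
  rw [jmat_mulVec hσ]
  rfl

/-- The energy density in a chart. -/
lemma enDensN_eq (hw : IsHermitian w) (hΦ : ContMDiff 𝓘(ℂ, Cm N) 𝓘(ℂ, Cm n) ω Φ) {ζ : Cm N}
    {e : Chart n X} (he : At e (Φ ζ)) :
    enDensN w Φ ζ = ∑ j, (qf (w e (e (Φ ζ))) (pd e Φ j ζ)).re := by
  have h0 : enDensN w Φ ζ = ∑ j, (qf (w (chartAt (Cm n) (Φ ζ)) (chartAt (Cm n) (Φ ζ) (Φ ζ)))
      (pd (chartAt (Cm n) (Φ ζ)) Φ j ζ)).re := by
    rw [← Complex.re_sum]
    rfl
  rw [h0]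
  have hAt : At (chartAt (Cm n) (Φ ζ)) (Φ ζ) := at_chartAt _
  refine Finset.sum_congr rfl fun j _ => ?_
  rw [hw.change _ e (Φ ζ) hAt he, qf_change, ← pd_change hΦ hAt he]

lemma enDensN_nonneg (hw : IsHermitian w) (hΦ : ContMDiff 𝓘(ℂ, Cm N) 𝓘(ℂ, Cm n) ω Φ) (ζ : Cm N) :
    0 ≤ enDensN w Φ ζ := by
  have hAt := at_chartAt (n := n) (Φ ζ)
  rw [enDensN_eq hw hΦ hAt]
  exact Finset.sum_nonneg fun j _ => qf_nonneg (hw.posDef _ _ hAt) _

lemma pd_continuousAt (hΦ : ContMDiff 𝓘(ℂ, Cm N) 𝓘(ℂ, Cm n) ω Φ) {ζ : Cm N} {e : Chart n X}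
    (he : At e (Φ ζ)) (j : Fin N) (k : Fin n) : ContinuousAt (fun ξ => pd e Φ j ξ k) ζ := by
  have h2 : ContDiffAt ℝ ω (fun ξ => e (Φ ξ) k) ζ :=
    (contDiffAt_pi.1 ((tauN_smooth hΦ he).restrict_scalars ℝ)) k
  exact (contDiffAt_dz (m := 0) h2 (by simp)).continuousAt

lemma enDensN_continuous (hw : IsHermitian w) (hΦ : ContMDiff 𝓘(ℂ, Cm N) 𝓘(ℂ, Cm n) ω Φ) :
    Continuous (enDensN w Φ) := by
  rw [continuous_iff_continuousAt]
  intro ζ
  set e := chartAt (Cm n) (Φ ζ) with he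
  have hAt : At e (Φ ζ) := at_chartAt _
  have h1 : enDensN w Φ =ᶠ[𝓝 ζ] fun ξ => ∑ j, (qf (w e (e (Φ ξ))) (pd e Φ j ξ)).re := by
    filter_upwards [atN_near hΦ hAt] with ξ hξ
    exact enDensN_eq hw hΦ hξ
  refine ContinuousAt.congr ?_ h1.symm
  have hw' : ∀ k l, ContinuousAt (fun ξ => w e (e (Φ ξ)) k l) ζ := fun k l =>
    ContinuousAt.comp (f := fun ξ => e (Φ ξ)) (g := fun z => w e z k l)
      (hw.smooth e _ hAt k l).continuousAt (tauN_smooth hΦ hAt).continuousAt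
  refine tendsto_finsetSum _ fun j _ => ?_
  refine Complex.continuous_re.continuousAt.comp (f := fun ξ => qf (w e (e (Φ ξ))) (pd e Φ j ξ)) ?_
  refine tendsto_finsetSum _ fun k _ => tendsto_finsetSum _ fun l _ => ?_
  exact ((hw' k l).mul (pd_continuousAt hΦ hAt j k)).mul
    (Complex.continuous_conj.continuousAt.comp (pd_continuousAt hΦ hAt j l))

omit [IsManifold 𝓘(ℂ, Cm n) ω X] in
lemma comp_contMDiff (hΦ : ContMDiff 𝓘(ℂ, Cm N) 𝓘(ℂ, Cm n) ω Φ) (i : Fin n → Fin N) (c : Cm N) :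
    ContMDiff 𝓘(ℂ, Cm n) 𝓘(ℂ, Cm n) ω (Φ ∘ aff i c) :=
  hΦ.comp (contMDiff_iff_contDiff.2 (aff_contDiff i c))

/-- The partial derivatives of a restriction. -/
lemma pd_comp (hΦ : ContMDiff 𝓘(ℂ, Cm N) 𝓘(ℂ, Cm n) ω Φ) (i : Fin n → Fin N) (c : Cm N)
    {z : Cm n} {e : Chart n X} (he : At e (Φ (aff i c z))) (k : Fin n) :
    pd e (Φ ∘ aff i c) k z = pd e Φ (i k) (aff i c z) := by
  have hτ := (tauN_smooth hΦ he).differentiableAt (by simp)
  have h1 := pd_eq (comp_contMDiff hΦ i c) (ζ := z) (e := e) he k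
  rw [h1, pd_eq hΦ he]
  rw [show (fun ξ => e ((Φ ∘ aff i c) ξ)) = (fun ξ => e (Φ ξ)) ∘ aff i c from rfl,
    fderiv_comp z hτ (aff_hasFDerivAt i c z).differentiableAt, ContinuousLinearMap.comp_apply,
    (aff_hasFDerivAt i c z).fderiv, emb_single]

lemma enDens_le (hw : IsHermitian w) (hΦ : ContMDiff 𝓘(ℂ, Cm N) 𝓘(ℂ, Cm n) ω Φ)
    {i : Fin n → Fin N} (hi : Function.Injective i) (c : Cm N) (z : Cm n) :
    enDens w (Φ ∘ aff i c) z ≤ enDensN w Φ (aff i c z) := by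
  have hAt := at_chartAt (n := n) (Φ (aff i c z))
  rw [enDensN_eq hw hΦ hAt, enDens_eq hw (comp_contMDiff hΦ i c) (ζ := z) hAt, Complex.re_sum]
  have h1 : ∀ k : Fin n, (qf (w (chartAt (Cm n) (Φ (aff i c z)))
      (chartAt (Cm n) (Φ (aff i c z)) ((Φ ∘ aff i c) z))) fun l =>
        dz k (fun ξ => chartAt (Cm n) (Φ (aff i c z)) ((Φ ∘ aff i c) ξ) l) z).re =
      (qf (w (chartAt (Cm n) (Φ (aff i c z))) (chartAt (Cm n) (Φ (aff i c z)) (Φ (aff i c z))))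
        (pd (chartAt (Cm n) (Φ (aff i c z))) Φ (i k) (aff i c z))).re := by
    intro k
    rw [← pd_comp hΦ i c hAt k]
    rfl
  rw [Finset.sum_congr rfl fun k _ => h1 k]
  set g : Fin N → ℝ := fun j => (qf (w (chartAt (Cm n) (Φ (aff i c z)))
    (chartAt (Cm n) (Φ (aff i c z)) (Φ (aff i c z))))
      (pd (chartAt (Cm n) (Φ (aff i c z))) Φ j (aff i c z))).re with hg
  have hg0 : ∀ j, 0 ≤ g j := fun j => qf_nonneg (hw.posDef _ _ hAt) _
  calc ∑ k, g (i k) = ∑ j ∈ Finset.univ.image i, g j := by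
        rw [Finset.sum_image fun a _ b _ h => hi h]
    _ ≤ ∑ j, g j := Finset.sum_le_sum_of_subset_of_nonneg (Finset.subset_univ _)
        fun j _ _ => hg0 j

/-- The Jacobian is nonzero at the nearby points. -/
lemma det_near (hΦ : ContMDiff 𝓘(ℂ, Cm N) 𝓘(ℂ, Cm n) ω Φ) {ζ : Cm N} {i : Fin n → Fin N}
    (hd : (Matrix.of fun k j => dz (i j) (fun ξ => chartAt (Cm n) (Φ ζ) (Φ ξ) k) ζ).det ≠ 0) :
    ∀ᶠ c in 𝓝 ζ,
      (Matrix.of fun k j => pd (chartAt (Cm n) (Φ c)) Φ (i j) c k).det ≠ 0 := by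
  set e := chartAt (Cm n) (Φ ζ) with he
  have hAt : At e (Φ ζ) := at_chartAt _
  have h1 : ContinuousAt (fun c => (Matrix.of fun k j => pd e Φ (i j) c k).det) ζ :=
    ContinuousAt.comp (g := fun M : Matrix (Fin n) (Fin n) ℂ => M.det)
      (f := fun c => Matrix.of fun k j => pd e Φ (i j) c k)
      (continuous_id.matrix_det.continuousAt)
      (continuousAt_pi.2 fun k => continuousAt_pi.2 fun j => pd_continuousAt hΦ hAt (i j) k)
  have h2 : ∀ᶠ c in 𝓝 ζ, (Matrix.of fun k j => pd e Φ (i j) c k).det ≠ 0 :=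
    h1.eventually_ne hd
  filter_upwards [h2, atN_near hΦ hAt] with c hc hce
  have hAt' : At (chartAt (Cm n) (Φ c)) (Φ c) := at_chartAt _
  have h3 : (Matrix.of fun k j => pd (chartAt (Cm n) (Φ c)) Φ (i j) c k) =
      jacM e (chartAt (Cm n) (Φ c)) (Φ c) * (Matrix.of fun k j => pd e Φ (i j) c k) := by
    ext k j
    rw [Matrix.of_apply, pd_change hΦ hce hAt' (i j), Matrix.mul_apply]
    rfl
  rw [h3, Matrix.det_mul]
  exact mul_ne_zero (jacM_det_ne_zero hce hAt') hc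

/-- **Row NN.** -/
theorem nn (hw : IsHermitian w) (h : HasFiniteOrderN w Φ) :
    ∃ A : Cm n → Cm N, Differentiable ℂ A ∧ HasFiniteOrder w (Φ ∘ A) := by
  obtain ⟨hΦ, ⟨ζ, i, hd⟩, C, ρ, ho⟩ := h
  have hi : Function.Injective i := by
    intro a b hab
    by_contra hne
    refine hd (Matrix.det_zero_of_column_eq hne fun k => ?_)
    rw [Matrix.of_apply, Matrix.of_apply, hab]
  obtain ⟨δ, hδ, hball⟩ := Metric.eventually_nhds_iff_ball.1 (det_near hΦ hd)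
  obtain ⟨c, hc, C', ρ', hC'⟩ := exists_slice (enDensN_continuous hw hΦ)
    (enDensN_nonneg hw hΦ) ho (emb i) (emb i).continuous (norm_emb hi) ζ hδ
  refine ⟨aff i c, aff_differentiable i c, comp_contMDiff hΦ i c, ⟨0, ?_⟩, C', ρ', fun r hr => ?_⟩
  · have h0 : aff i c 0 = c := by unfold aff; rw [map_zero, add_zero]
    have h1 := hball c hc
    have hAt : At (chartAt (Cm n) (Φ (aff i c 0))) (Φ (aff i c 0)) := at_chartAt _
    have h2 : (Matrix.of fun k j => dz j (fun ξ => chartAt (Cm n) ((Φ ∘ aff i c) 0)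
        ((Φ ∘ aff i c) ξ) k) 0) =
        (Matrix.of fun k j => pd (chartAt (Cm n) (Φ (aff i c 0))) Φ (i j) (aff i c 0) k) := by
      ext k j
      rw [Matrix.of_apply, Matrix.of_apply, ← pd_comp hΦ i c hAt j]
      rfl
    rw [h2, h0]
    exact h1
  · refine le_trans ?_ (hC' r hr)
    have hc1 : Continuous (enDens w (Φ ∘ aff i c)) := enDens_continuous hw (comp_contMDiff hΦ i c)
    have hc2 : Continuous fun z : Cm n => enDensN w Φ (c + emb i z) :=
      (enDensN_continuous hw hΦ).comp (continuous_const.add (emb i).continuous)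
    refine setIntegral_mono_on ?_ ?_ measurableSet_ball fun z _ => enDens_le hw hΦ hi c z
    · exact (hc1.continuousOn.integrableOn_compact (isCompact_closedBall (0 : Cm n) r)).mono_set
        ball_subset_closedBall
    · exact (hc2.continuousOn.integrableOn_compact (isCompact_closedBall (0 : Cm n) r)).mono_set
        ball_subset_closedBall

end

end Vale.Agent.P284.H636
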