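import Mathlib.MeasureTheory.Integral.Prod
import Mathlib.MeasureTheory.Measure.Lebesgue.EqHaar
import Mathlib.MeasureTheory.Measure.Haar.NormedSpace
import Mathlib.MeasureTheory.Measure.Lebesgue.Complex
import Mathlib.Analysis.SpecialFunctions.Pow.Real
import Mathlib.Analysis.SpecificLimits.Basic

/-!
# P284 (helper636): slices of functions of polynomial growth of the integral
-/

open Filter Set Metric MeasureTheory
open scoped Topology ENNReal

noncomputable section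

namespace Vale.Agent.P284.H636

/-- `ℂⁿ`. -/
abbrev Cv (n : ℕ) : Type := Fin n → ℂ

variable {N n : ℕ}

/-- The integral over a ball of a translated function. -/
lemma lint_translate (F : Cv N → ℝ≥0∞) (ζ₀ v : Cv N) (δ R : ℝ)
    (h : ∀ c ∈ ball ζ₀ δ, c + v ∈ ball (0 : Cv N) R) :
    ∫⁻ c in ball ζ₀ δ, F (c + v) ≤ ∫⁻ c in ball (0 : Cv N) R, F c := by
  rw [← lintegral_indicator measurableSet_ball, ← lintegral_indicator measurableSet_ball,
    ← lintegral_add_right_eq_self (fun c => (ball (0 : Cv N) R).indicator F c) v]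
  refine lintegral_mono fun c => ?_
  by_cases hc : c ∈ ball ζ₀ δ
  · rw [indicator_of_mem hc, indicator_of_mem (h c hc)]
  · rw [indicator_of_notMem hc]
    exact zero_le

/-- **Slices.** -/
theorem exists_slice {f : Cv N → ℝ} (hf : Continuous f) (hf0 : ∀ ζ, 0 ≤ f ζ) {C ρ : ℝ}
    (h : ∀ r : ℝ, 1 ≤ r → ∫ ζ in ball (0 : Cv N) r, f ζ ≤ C * r ^ ρ)
    (ι : Cv n → Cv N) (hιc : Continuous ι) (hι : ∀ z, ‖ι z‖ ≤ ‖z‖) (ζ₀ : Cv N) {δ : ℝ}
    (hδ : 0 < δ) :
    ∃ c ∈ ball ζ₀ δ, ∃ C' ρ' : ℝ, ∀ r : ℝ, 1 ≤ r →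
      ∫ z in ball (0 : Cv n) r, f (c + ι z) ≤ C' * r ^ ρ' := by
  -- natural exponents
  obtain ⟨m, hm⟩ := exists_nat_ge ρ
  have hC : 0 ≤ C := by
    have h1 := h 1 le_rfl
    rw [Real.one_rpow, mul_one] at h1
    exact (integral_nonneg fun ζ => hf0 ζ).trans h1
  have hint : ∀ R : ℝ, IntegrableOn f (ball (0 : Cv N) R) := fun R =>
    (hf.continuousOn.integrableOn_compact (isCompact_closedBall (0 : Cv N) R)).mono_set
      ball_subset_closedBall
  set F : Cv N → ℝ≥0∞ := fun ζ => ENNReal.ofReal (f ζ) with hF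
  have hFm : Measurable F := hf.measurable.ennreal_ofReal
  have h1 : ∀ R : ℝ, 1 ≤ R → ∫⁻ ζ in ball (0 : Cv N) R, F ζ ≤ ENNReal.ofReal (C * R ^ m) := by
    intro R hR
    rw [hF, ← ofReal_integral_eq_lintegral_ofReal (hint R) (ae_of_all _ hf0)]
    refine ENNReal.ofReal_le_ofReal ((h R hR).trans ?_)
    refine mul_le_mul_of_nonneg_left ?_ hC
    rw [← Real.rpow_natCast]
    exact Real.rpow_le_rpow_of_exponent_le hR hm
  -- the constants
  set K : ℝ := ‖ζ₀‖ + δ + 1 with hK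
  have hK1 : 1 ≤ K := by have := norm_nonneg ζ₀; linarith
  set d : ℕ := Module.finrank ℝ (Cv n) with hd
  set V : ℝ≥0∞ := volume (ball (0 : Cv n) 1) with hV
  have hVt : V ≠ ∞ := measure_ball_lt_top.ne
  set C₁ : ℝ := V.toReal * (C * K ^ m) with hC₁
  have hC₁0 : 0 ≤ C₁ := by positivity
  set G : ℕ → Cv N → ℝ≥0∞ := fun k c => ∫⁻ z in ball (0 : Cv n) ((2 : ℝ) ^ k), F (c + ι z) with hG
  have hFun : Measurable (Function.uncurry fun (c : Cv N) (z : Cv n) => F (c + ι z)) :=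
    hFm.comp (measurable_fst.add (hιc.measurable.comp measurable_snd))
  have hGm : ∀ k, Measurable (G k) := fun k => hFun.lintegral_prod_right
  -- the mean of `G k`
  have h2 : ∀ k, ∫⁻ c in ball ζ₀ δ, G k c ≤ ENNReal.ofReal (C₁ * ((2 : ℝ) ^ k) ^ (m + d)) := by
    intro k
    have h2k : (1 : ℝ) ≤ 2 ^ k := one_le_pow₀ (by norm_num)
    have hswap : ∫⁻ c in ball ζ₀ δ, G k c =
        ∫⁻ z in ball (0 : Cv n) ((2 : ℝ) ^ k), ∫⁻ c in ball ζ₀ δ, F (c + ι z) := by
      rw [hG]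
      exact lintegral_lintegral_swap hFun.aemeasurable
    rw [hswap]
    have h3 : ∀ z ∈ ball (0 : Cv n) ((2 : ℝ) ^ k), ∫⁻ c in ball ζ₀ δ, F (c + ι z) ≤
        ENNReal.ofReal (C * (K * 2 ^ k) ^ m) := by
      intro z hz
      refine (lint_translate F ζ₀ (ι z) δ (K * 2 ^ k) fun c hc => ?_).trans
        (h1 _ (one_le_mul_of_one_le_of_one_le hK1 h2k))
      rw [mem_ball_zero_iff] at hz ⊢
      rw [mem_ball_iff_norm] at hc
      have h4 : ‖c + ι z‖ ≤ ‖c - ζ₀‖ + ‖ζ₀‖ + ‖ι z‖ := by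
        have : c + ι z = (c - ζ₀) + ζ₀ + ι z := by abel
        rw [this]
        exact (norm_add_le _ _).trans (by gcongr; exact norm_add_le _ _)
      have h5 := hι z
      have h6 : ‖ζ₀‖ + δ ≤ (‖ζ₀‖ + δ) * 2 ^ k := le_mul_of_one_le_right (by positivity) h2k
      calc ‖c + ι z‖ ≤ ‖c - ζ₀‖ + ‖ζ₀‖ + ‖ι z‖ := h4
        _ < δ + ‖ζ₀‖ + 2 ^ k := by linarith
        _ ≤ K * 2 ^ k := by rw [hK]; linarith
    calc ∫⁻ z in ball (0 : Cv n) ((2 : ℝ) ^ k), ∫⁻ c in ball ζ₀ δ, F (c + ι z)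
        ≤ ∫⁻ z in ball (0 : Cv n) ((2 : ℝ) ^ k), ENNReal.ofReal (C * (K * 2 ^ k) ^ m) :=
          setLIntegral_mono' measurableSet_ball h3
      _ = ENNReal.ofReal (C * (K * 2 ^ k) ^ m) * volume (ball (0 : Cv n) ((2 : ℝ) ^ k)) :=
          setLIntegral_const _ _
      _ = ENNReal.ofReal (C₁ * ((2 : ℝ) ^ k) ^ (m + d)) := by
          rw [Measure.addHaar_ball_of_pos volume (0 : Cv n) (by positivity : (0 : ℝ) < 2 ^ k), ← hd, ← hV]
          rw [← ENNReal.ofReal_toReal hVt, ← ENNReal.ofReal_mul (by positivity),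
            ← ENNReal.ofReal_mul (by positivity)]
          congr 1
          rw [hC₁, mul_pow, pow_add]
          ring
  -- the sum
  set a : ℕ → ℝ≥0∞ := fun k => ENNReal.ofReal ((((2 : ℝ) ^ k) ^ (m + d + 1))⁻¹) with ha
  have h3 : ∫⁻ c in ball ζ₀ δ, ∑' k, a k * G k c ≠ ∞ := by
    rw [lintegral_tsum fun k => ((hGm k).const_mul _).aemeasurable]
    have h4 : ∀ k, ∫⁻ c in ball ζ₀ δ, a k * G k c ≤ ENNReal.ofReal (C₁ * (1 / 2) ^ k) := by
      intro k
      rw [lintegral_const_mul _ (hGm k)]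
      refine (mul_le_mul_right (h2 k) (a k)).trans ?_
      rw [ha]
      simp only
      rw [← ENNReal.ofReal_mul (by positivity)]
      refine ENNReal.ofReal_le_ofReal (le_of_eq ?_)
      have h5 : ((2 : ℝ) ^ k) ≠ 0 := by positivity
      rw [pow_succ ((2 : ℝ) ^ k) (m + d), one_div, inv_pow]
      field_simp
    refine ne_top_of_le_ne_top ?_ (ENNReal.tsum_le_tsum h4)
    rw [← ENNReal.ofReal_tsum_of_nonneg (fun k => by positivity)
      ((summable_geometric_of_lt_one (by norm_num) (by norm_num)).mul_left C₁)]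
    exact ENNReal.ofReal_ne_top
  have h4 : ∀ᵐ c ∂(volume.restrict (ball ζ₀ δ)), ∑' k, a k * G k c < ∞ :=
    ae_lt_top (Measurable.tsum fun k => (hGm k).const_mul _) h3
  have h5 : ∀ᵐ c ∂(volume.restrict (ball ζ₀ δ)), c ∈ ball ζ₀ δ := ae_restrict_mem measurableSet_ball
  have : (ae (volume.restrict (ball ζ₀ δ))).NeBot := by
    rw [ae_neBot, Ne, Measure.restrict_eq_zero]
    exact (measure_ball_pos volume ζ₀ hδ).ne'
  obtain ⟨c, hc1, hc2⟩ := (h4.and h5).exists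
  set S : ℝ≥0∞ := ∑' k, a k * G k c with hS
  refine ⟨c, hc2, S.toReal * 2 ^ (m + d + 1), ((m + d + 1 : ℕ) : ℝ), fun r hr => ?_⟩
  obtain ⟨k, hk1, hk2⟩ := exists_nat_pow_near hr (by norm_num : (1 : ℝ) < 2)
  have hfc : Continuous fun z : Cv n => f (c + ι z) := hf.comp (continuous_const.add hιc)
  have hint2 : IntegrableOn (fun z : Cv n => f (c + ι z)) (ball (0 : Cv n) r) :=
    (hfc.continuousOn.integrableOn_compact (isCompact_closedBall (0 : Cv n) r)).mono_set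
      ball_subset_closedBall
  have h6 : G (k + 1) c ≤ S * ENNReal.ofReal (((2 : ℝ) ^ (k + 1)) ^ (m + d + 1)) := by
    have h7 : a (k + 1) * G (k + 1) c ≤ S := ENNReal.le_tsum (k + 1)
    have h8 : a (k + 1) * ENNReal.ofReal (((2 : ℝ) ^ (k + 1)) ^ (m + d + 1)) = 1 := by
      rw [ha]
      simp only
      rw [← ENNReal.ofReal_mul (by positivity), inv_mul_cancel₀ (by positivity), ENNReal.ofReal_one]
    calc G (k + 1) c = (a (k + 1) * ENNReal.ofReal (((2 : ℝ) ^ (k + 1)) ^ (m + d + 1))) *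
          G (k + 1) c := by rw [h8, one_mul]
      _ = (a (k + 1) * G (k + 1) c) * ENNReal.ofReal (((2 : ℝ) ^ (k + 1)) ^ (m + d + 1)) := by ring
      _ ≤ S * ENNReal.ofReal (((2 : ℝ) ^ (k + 1)) ^ (m + d + 1)) := by gcongr
  have h9 : ∫⁻ z in ball (0 : Cv n) r, F (c + ι z) ≤ G (k + 1) c :=
    lintegral_mono_set (ball_subset_ball hk2.le)
  have hSt : S ≠ ∞ := hc1.ne
  calc ∫ z in ball (0 : Cv n) r, f (c + ι z)
      = (∫⁻ z in ball (0 : Cv n) r, F (c + ι z)).toReal := by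
        rw [integral_eq_lintegral_of_nonneg_ae (ae_of_all _ fun z => hf0 _)
          hint2.aestronglyMeasurable]
    _ ≤ (S * ENNReal.ofReal (((2 : ℝ) ^ (k + 1)) ^ (m + d + 1))).toReal :=
        ENNReal.toReal_mono (ENNReal.mul_ne_top hSt ENNReal.ofReal_ne_top) (h9.trans h6)
    _ = S.toReal * ((2 : ℝ) ^ (k + 1)) ^ (m + d + 1) := by
        rw [ENNReal.toReal_mul, ENNReal.toReal_ofReal (by positivity)]
    _ ≤ S.toReal * (2 * r) ^ (m + d + 1) := by
        refine mul_le_mul_of_nonneg_left ?_ ENNReal.toReal_nonneg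
        refine pow_le_pow_left₀ (by positivity) ?_ _
        rw [pow_succ]
        linarith
    _ = S.toReal * 2 ^ (m + d + 1) * r ^ ((m + d + 1 : ℕ) : ℝ) := by
        rw [Real.rpow_natCast, mul_pow]
        ring

end Vale.Agent.P284.H636
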